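import Vale.Agent.P195.H231.Gnc
import Mathlib.LinearAlgebra.TensorProduct.Basis
import Mathlib.LinearAlgebra.TensorProduct.Pi
import Mathlib.LinearAlgebra.TensorProduct.RightExactness
import Mathlib.RingTheory.TensorProduct.Maps
import Mathlib.RingTheory.Flat.Basic

/-!
# P195: base change along an arbitrary algebra

`K` is a field, `R` and `A` are `K`-algebras (not necessarily commutative), and `R ⊗ M` is the
`R ⊗ A`-module obtained from the `A`-module `M`.
-/

open CategoryTheory CategoryTheory.Abelian Function TensorProduct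

namespace Vale.Agent.P195.H584

open Vale.Agent.P195.Van

universe u

/-- the abelian group `R ⊗ M` -/
def BC (K R M : Type u) [Field K] [Ring R] [Algebra K R] [AddCommGroup M] [Module K M] : Type u :=
  R ⊗[K] M

section

variable {K R A : Type u} [Field K] [Ring R] [Algebra K R] [Ring A] [Algebra K A]
variable {M N P X : Type u}
  [AddCommGroup M] [Module K M] [Module A M] [IsScalarTower K A M]
  [AddCommGroup N] [Module K N] [Module A N] [IsScalarTower K A N]
  [AddCommGroup P] [Module K P] [Module A P] [IsScalarTower K A P]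
  [AddCommGroup X] [Module K X] [Module A X] [IsScalarTower K A X]

noncomputable instance : AddCommGroup (BC K R M) := inferInstanceAs (AddCommGroup (R ⊗[K] M))

variable (K R A M) in
/-- the action of `R ⊗ A` on `R ⊗ M` -/
noncomputable def act : R ⊗[K] A →ₐ[K] Module.End K (R ⊗[K] M) :=
  (Module.endTensorEndAlgHom (R := K) (S := K) (A := K) (M := R) (N := M)).comp
    (Algebra.TensorProduct.map (Algebra.lmul K R) (Algebra.lsmul K K M))

noncomputable instance : Module (R ⊗[K] A) (BC K R M) :=
  Module.compHom (R ⊗[K] M) (act K R A M).toRingHom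

/-- pure tensors -/
def bc (r : R) (m : M) : BC K R M := r ⊗ₜ[K] m

theorem smul_bc (r s : R) (a : A) (m : M) :
    (r ⊗ₜ[K] a : R ⊗[K] A) • (bc s m : BC K R M) = bc (r * s) (a • m) := rfl

theorem bc_add (r : R) (m m' : M) : (bc r (m + m') : BC K R M) = bc r m + bc r m' :=
  TensorProduct.tmul_add _ _ _

theorem add_bc (r r' : R) (m : M) : (bc (r + r') m : BC K R M) = bc r m + bc r' m :=
  TensorProduct.add_tmul _ _ _

theorem bc_zero (r : R) : (bc r (0 : M) : BC K R M) = 0 := TensorProduct.tmul_zero _ _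

theorem bc_ind {p : BC K R M → Prop} (h0 : p 0) (h1 : ∀ r m, p (bc r m))
    (h2 : ∀ x y, p x → p y → p (x + y)) (z : BC K R M) : p z :=
  TensorProduct.induction_on (motive := p) z h0 h1 h2

/-- additive maps which respect the action of pure tensors on pure tensors are linear -/
theorem smul_of_pure {T : Type u} [AddCommGroup T] [Module (R ⊗[K] A) T] (F : BC K R M →+ T)
    (h : ∀ (r : R) (a : A) (s : R) (m : M),
      F (bc (r * s) (a • m)) = (r ⊗ₜ[K] a : R ⊗[K] A) • F (bc s m))
    (z : R ⊗[K] A) (x : BC K R M) : F (z • x) = z • F x := by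
  induction z with
  | zero => rw [zero_smul, zero_smul, map_zero]
  | add z z' hz hz' => rw [add_smul, add_smul, map_add, hz, hz']
  | tmul r a =>
    induction x using bc_ind with
    | h0 => rw [smul_zero, map_zero, smul_zero]
    | h1 s m => rw [smul_bc, h]
    | h2 x y hx hy => rw [smul_add, map_add, map_add, smul_add, hx, hy]

/-- `R ⊗ A`-linear maps out of `R ⊗ M` -/
noncomputable def lift {T : Type u} [AddCommGroup T] [Module (R ⊗[K] A) T] (φ : M →+ T)
    (h : ∀ (a : A) (m : M), φ (a • m) = ((1 : R) ⊗ₜ[K] a : R ⊗[K] A) • φ m) :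
    BC K R M →ₗ[R ⊗[K] A] T :=
  let F : BC K R M →+ T := TensorProduct.liftAddHom
    (AddMonoidHom.mk' (fun r : R => (DistribSMul.toAddMonoidHom T
        (r ⊗ₜ[K] (1 : A) : R ⊗[K] A)).comp φ) (by
      intro r r'
      ext m
      change ((r + r') ⊗ₜ[K] (1 : A) : R ⊗[K] A) • φ m = _
      rw [TensorProduct.add_tmul, add_smul]
      rfl)) (by
      intro k r m
      change ((k • r) ⊗ₜ[K] (1 : A) : R ⊗[K] A) • φ m = (r ⊗ₜ[K] (1 : A) : R ⊗[K] A) • φ (k • m)
      rw [← algebraMap_smul A k m, h, ← mul_smul, Algebra.TensorProduct.tmul_mul_tmul, mul_one,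
        one_mul, Algebra.algebraMap_eq_smul_one, TensorProduct.tmul_smul,
        TensorProduct.smul_tmul'])
  { toFun := F
    map_add' := F.map_add
    map_smul' := smul_of_pure F (by
      intro r a s m
      change ((r * s) ⊗ₜ[K] (1 : A) : R ⊗[K] A) • φ (a • m) =
        (r ⊗ₜ[K] a : R ⊗[K] A) • (s ⊗ₜ[K] (1 : A) : R ⊗[K] A) • φ m
      rw [h, ← mul_smul, ← mul_smul, Algebra.TensorProduct.tmul_mul_tmul,
        Algebra.TensorProduct.tmul_mul_tmul, mul_one, one_mul, mul_one]) }

theorem lift_bc {T : Type u} [AddCommGroup T] [Module (R ⊗[K] A) T] (φ : M →+ T)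
    (h : ∀ (a : A) (m : M), φ (a • m) = ((1 : R) ⊗ₜ[K] a : R ⊗[K] A) • φ m) (r : R) (m : M) :
    lift φ h (bc r m) = (r ⊗ₜ[K] (1 : A) : R ⊗[K] A) • φ m := rfl

theorem hom_ext {T : Type u} [AddCommGroup T] [Module (R ⊗[K] A) T]
    {U V : BC K R M →ₗ[R ⊗[K] A] T} (h : ∀ m, U (bc 1 m) = V (bc 1 m)) : U = V := by
  apply LinearMap.ext
  intro z
  induction z using bc_ind with
  | h0 => rw [map_zero, map_zero]
  | h1 r m =>
    have : (bc r m : BC K R M) = (r ⊗ₜ[K] (1 : A) : R ⊗[K] A) • bc 1 m := by
      rw [smul_bc, mul_one, one_smul]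
    rw [this, map_smul, map_smul, h]
  | h2 x y hx hy => rw [map_add, map_add, hx, hy]

variable (K R) in
/-- the map `R ⊗ f` -/
noncomputable def bcMap (f : M →ₗ[A] P) : BC K R M →ₗ[R ⊗[K] A] BC K R P :=
  let F : BC K R M →+ BC K R P := (LinearMap.lTensor R (f.restrictScalars K)).toAddMonoidHom
  { toFun := F
    map_add' := F.map_add
    map_smul' := smul_of_pure F (by
      intro r a s m
      change (bc (r * s) (f (a • m)) : BC K R P) = (r ⊗ₜ[K] a : R ⊗[K] A) • bc s (f m)
      rw [smul_bc, map_smul]) }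

theorem bcMap_bc (f : M →ₗ[A] P) (r : R) (m : M) : bcMap K R f (bc r m) = bc r (f m) := rfl

theorem bcMap_surjective {f : M →ₗ[A] P} (hf : Surjective f) : Surjective (bcMap K R f) :=
  LinearMap.lTensor_surjective R (g := f.restrictScalars K) hf

theorem SES.bc {f : X →ₗ[A] P} {g : P →ₗ[A] M} (s : SES f g) :
    SES (bcMap K R f) (bcMap K R g) where
  inj := Module.Flat.lTensor_preserves_injective_linearMap (M := R) (f.restrictScalars K) s.inj
  exact := lTensor_exact R (f := f.restrictScalars K) (g := g.restrictScalars K) s.exact s.surj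
  surj := bcMap_surjective s.surj

variable (K R A) in
/-- `R ⊗ Aⁿ = (R ⊗ A)ⁿ` -/
noncomputable def piEquiv (n : ℕ) : BC K R (Fin n → A) ≃ₗ[R ⊗[K] A] (Fin n → R ⊗[K] A) :=
  let e : BC K R (Fin n → A) ≃+ (Fin n → R ⊗[K] A) :=
    (TensorProduct.piRight K K R (fun _ : Fin n => A)).toAddEquiv
  { toFun := e
    invFun := e.symm
    left_inv := e.left_inv
    right_inv := e.right_inv
    map_add' := e.map_add
    map_smul' := smul_of_pure e.toAddMonoidHom (by
      intro r a s m
      funext i
      change (r * s) ⊗ₜ[K] (a • m i) = (r ⊗ₜ[K] a : R ⊗[K] A) * (s ⊗ₜ[K] m i)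
      rw [Algebra.TensorProduct.tmul_mul_tmul]
      rfl) }

variable (K R A) in
/-- the regular module -/
noncomputable def regEquiv : BC K R A ≃ₗ[R ⊗[K] A] R ⊗[K] A :=
  let e : BC K R A ≃+ R ⊗[K] A := AddEquiv.refl _
  { toFun := e
    invFun := e.symm
    left_inv := e.left_inv
    right_inv := e.right_inv
    map_add' := e.map_add
    map_smul' := smul_of_pure e.toAddMonoidHom (by
      intro r a s m
      change (r * s) ⊗ₜ[K] (a * m) = (r ⊗ₜ[K] a : R ⊗[K] A) * (s ⊗ₜ[K] m)
      rw [Algebra.TensorProduct.tmul_mul_tmul]) }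

instance (n : ℕ) : Module.Projective (R ⊗[K] A) (BC K R (Fin n → A)) :=
  Module.Projective.of_equiv (piEquiv K R A n).symm

instance (n : ℕ) : Module.Finite (R ⊗[K] A) (BC K R (Fin n → A)) :=
  Module.Finite.equiv (piEquiv K R A n).symm

theorem finite_bc [Module.Finite A M] : Module.Finite (R ⊗[K] A) (BC K R M) := by
  obtain ⟨n, g, hg⟩ := Module.Finite.exists_fin' A M
  exact Module.Finite.of_surjective (bcMap K R g) (bcMap_surjective hg)

/-! ### extension of maps -/

/-- coordinates with respect to a basis of `R` -/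
noncomputable def coord {ι : Type u} [DecidableEq ι] (b : Module.Basis ι K R) : BC K R N ≃+ (ι →₀ N) :=
  (TensorProduct.equivFinsuppOfBasisLeft (N := N) b).toAddEquiv

theorem coord_bc {ι : Type u} [DecidableEq ι] (b : Module.Basis ι K R) (r : R) (n : N) (i : ι) :
    coord b (bc r n) i = b.repr r i • n :=
  congrArg (fun f : ι →₀ N => f i)
    (TensorProduct.equivFinsuppOfBasisLeft_apply_tmul b r n)

theorem coord_smul {ι : Type u} [DecidableEq ι] (b : Module.Basis ι K R) (a : A) (z : BC K R N) (i : ι) :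
    coord b (((1 : R) ⊗ₜ[K] a : R ⊗[K] A) • z) i = a • coord b z i := by
  induction z using bc_ind with
  | h0 => rw [smul_zero, map_zero, Finsupp.zero_apply, smul_zero]
  | h1 s m =>
    rw [smul_bc, one_mul, coord_bc, coord_bc]
    rw [← algebraMap_smul A (b.repr s i) (a • m), ← algebraMap_smul A (b.repr s i) m, ← mul_smul,
      ← mul_smul, Algebra.commutes]
  | h2 x y hx hy => rw [smul_add, map_add, map_add, Finsupp.add_apply, Finsupp.add_apply, hx, hy,
      smul_add]

theorem eq_sum {ι : Type u} [DecidableEq ι] (b : Module.Basis ι K R) (z : BC K R N) (J : Finset ι)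
    (hJ : ∀ i, i ∉ J → coord b z i = 0) : z = ∑ i ∈ J, bc (b i) (coord b z i) := by
  have h : z = (coord b z).sum fun i n => (bc (b i) n : BC K R N) := by
    apply (coord b).injective
    conv_lhs => rw [← (coord b).apply_symm_apply (coord b z)]
    congr 1
    exact TensorProduct.equivFinsuppOfBasisLeft_symm_apply b _
  conv_lhs => rw [h]
  refine Finsupp.sum_of_support_subset _ (fun i hi => ?_) _ (fun i _ => bc_zero _)
  by_contra hi'
  exact (Finsupp.mem_support_iff.1 hi) (hJ i hi')

/-- Maps `R ⊗ X → R ⊗ N` extend along `X → P` if the maps `X → N` do and `X` is finite. -/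
theorem extend_bc [Module.Finite A X] (f : X →ₗ[A] P)
    (hext : ∀ u : X →ₗ[A] N, ∃ v : P →ₗ[A] N, v ∘ₗ f = u)
    (U : BC K R X →ₗ[R ⊗[K] A] BC K R N) :
    ∃ V : BC K R P →ₗ[R ⊗[K] A] BC K R N, V ∘ₗ bcMap K R f = U := by
  classical
  let b := Module.Basis.ofVectorSpace K R
  let φ : Module.Basis.ofVectorSpaceIndex K R → X →ₗ[A] N := fun i =>
    { toFun := fun x => coord b (U (bc 1 x)) i
      map_add' := fun x y => by rw [bc_add, map_add, map_add, Finsupp.add_apply]
      map_smul' := fun a x => by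
        have : (bc 1 (a • x) : BC K R X) = ((1 : R) ⊗ₜ[K] a : R ⊗[K] A) • bc 1 x := by
          rw [smul_bc, one_mul]
        rw [this, map_smul, coord_smul, RingHom.id_apply] }
  obtain ⟨S, hS⟩ := Module.Finite.fg_top (R := A) (M := X)
  let J : Finset (Module.Basis.ofVectorSpaceIndex K R) :=
    S.biUnion fun s => (coord b (U (bc 1 s))).support
  have hJ : ∀ i, i ∉ J → φ i = 0 := by
    intro i hi
    refine LinearMap.ext_on hS fun x hx => ?_
    rw [LinearMap.zero_apply]
    by_contra h
    exact hi (Finset.mem_biUnion.2 ⟨x, hx, Finsupp.mem_support_iff.2 h⟩)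
  choose ψ hψ using fun i => hext (φ i)
  let Ψ : P →+ BC K R N := ∑ i ∈ J, (AddMonoidHom.mk' (fun n : N => (bc (b i) n : BC K R N))
    (fun n n' => bc_add _ _ _)).comp (ψ i).toAddMonoidHom
  have hΨ : ∀ p, Ψ p = ∑ i ∈ J, (bc (b i) (ψ i p) : BC K R N) := by
    intro p
    rw [AddMonoidHom.finsetSum_apply]
    rfl
  refine ⟨lift Ψ ?_, ?_⟩
  · intro a p
    rw [hΨ, hΨ, Finset.smul_sum]
    refine Finset.sum_congr rfl fun i _ => ?_
    rw [smul_bc, one_mul, map_smul]
  · apply hom_ext
    intro x
    rw [LinearMap.comp_apply, bcMap_bc, lift_bc, hΨ]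
    have h1 : (1 : R ⊗[K] A) = (1 : R) ⊗ₜ[K] (1 : A) := rfl
    rw [← h1, one_smul]
    have h2 := eq_sum b (U (bc 1 x)) J (fun i hi => by
      change φ i x = 0
      rw [hJ i hi, LinearMap.zero_apply])
    rw [h2]
    refine Finset.sum_congr rfl fun i _ => ?_
    congr 1
    exact LinearMap.congr_fun (hψ i) x

/-- `Ext` and base change -/
theorem ez_bc [IsNoetherianRing A] : ∀ (i : ℕ) (M : Type u) [AddCommGroup M] [Module K M]
    [Module A M] [IsScalarTower K A M] [Module.Finite A M], EZ A (i + 1) M N →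
      EZ (R ⊗[K] A) (i + 1) (BC K R M) (BC K R N) := by
  intro i
  induction i with
  | zero =>
    intro M _ _ _ _ _ h
    obtain ⟨n, g, hg⟩ := Module.Finite.exists_fin' A M
    have s : SES (LinearMap.ker g).subtype g :=
      ⟨Subtype.val_injective, LinearMap.exact_subtype_ker_map g, hg⟩
    exact (SES.bc (K := K) (R := R) s).ez_one ((orthPos_of_projective) 0)
      (fun U => extend_bc _ (fun u => s.extend h u) U)
  | succ i ih =>
    intro M _ _ _ _ _ h
    obtain ⟨n, g, hg⟩ := Module.Finite.exists_fin' A M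
    have s : SES (LinearMap.ker g).subtype g :=
      ⟨Subtype.val_injective, LinearMap.exact_subtype_ker_map g, hg⟩
    have h1 : EZ A (i + 1) (LinearMap.ker g) N := s.ez_left ((orthPos_of_projective) i) h
    exact (SES.bc (K := K) (R := R) s).ez_right (ih _ h1) ((orthPos_of_projective) (i + 1))

/-- descent of projectivity -/
theorem projective_of_bc [Nontrivial R] [Module.Finite A M]
    (h : Module.Projective (R ⊗[K] A) (BC K R M)) : Module.Projective A M := by
  obtain ⟨n, g, hg⟩ := Module.Finite.exists_fin' A M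
  obtain ⟨S, hS⟩ := Module.projective_lifting_property (bcMap K R g) LinearMap.id
    (bcMap_surjective hg)
  obtain ⟨l, hl⟩ := LinearMap.exists_leftInverse_of_injective (Algebra.linearMap K R)
    (LinearMap.ker_eq_bot.2 (algebraMap K R).injective)
  have hl1 : l 1 = 1 := by
    have := LinearMap.congr_fun hl 1
    rwa [LinearMap.comp_apply, Algebra.linearMap_apply, map_one] at this
  let c (P : Type u) [AddCommGroup P] [Module K P] : BC K R P →+ P :=
    ((TensorProduct.lid K P).toLinearMap ∘ₗ LinearMap.rTensor P l).toAddMonoidHom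
  have hc (P : Type u) [AddCommGroup P] [Module K P] (r : R) (p : P) :
      c P (bc r p) = l r • p := rfl
  have hsm (P : Type u) [AddCommGroup P] [Module K P] [Module A P] [IsScalarTower K A P] (a : A)
      (z : BC K R P) : c P (((1 : R) ⊗ₜ[K] a : R ⊗[K] A) • z) = a • c P z := by
    induction z using bc_ind with
    | h0 => rw [smul_zero, map_zero, smul_zero]
    | h1 s m =>
      rw [smul_bc, one_mul, hc, hc, ← algebraMap_smul A (l s) (a • m), ← algebraMap_smul A (l s) m,
        ← mul_smul, ← mul_smul, Algebra.commutes]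
    | h2 x y hx hy => rw [smul_add, map_add, map_add, hx, hy, smul_add]
  have hg' (z : BC K R (Fin n → A)) : g (c _ z) = c M (bcMap K R g z) := by
    induction z using bc_ind with
    | h0 => rw [map_zero, map_zero, map_zero, map_zero]
    | h1 s m =>
      rw [bcMap_bc, hc, hc, ← algebraMap_smul A (l s) m, map_smul, algebraMap_smul]
    | h2 x y hx hy => rw [map_add, map_add, map_add, map_add, hx, hy]
  let σ : M →ₗ[A] (Fin n → A) :=
    { toFun := fun m => c _ (S (bc 1 m))
      map_add' := fun x y => by rw [bc_add, map_add, map_add]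
      map_smul' := fun a x => by
        have : (bc 1 (a • x) : BC K R M) = ((1 : R) ⊗ₜ[K] a : R ⊗[K] A) • bc 1 x := by
          rw [smul_bc, one_mul]
        rw [this, map_smul, hsm, RingHom.id_apply] }
  refine Module.Projective.of_split σ g ?_
  apply LinearMap.ext
  intro m
  change g (c _ (S (bc 1 m))) = m
  rw [hg']
  have := LinearMap.congr_fun hS (bc 1 m)
  rw [LinearMap.comp_apply] at this
  rw [this, LinearMap.id_apply, hc, hl1, one_smul]

theorem bcMap_comp (f : X →ₗ[A] P) (g : P →ₗ[A] M) :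
    bcMap K R (g ∘ₗ f) = bcMap K R g ∘ₗ bcMap K R f :=
  hom_ext fun _ => rfl

theorem bcMap_id : bcMap K R (LinearMap.id : M →ₗ[A] M) = LinearMap.id :=
  hom_ext fun _ => rfl

/-- ascent of projectivity -/
theorem bc_projective [Module.Finite A M] (h : Module.Projective A M) :
    Module.Projective (R ⊗[K] A) (BC K R M) := by
  obtain ⟨n, g, hg⟩ := Module.Finite.exists_fin' A M
  obtain ⟨S, hS⟩ := Module.projective_lifting_property g LinearMap.id hg
  refine Module.Projective.of_split (bcMap K R S) (bcMap K R g) ?_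
  rw [← bcMap_comp, hS, bcMap_id]

/-- `Ext` and base change, all degrees, with values in `R ⊗ A` -/
theorem ez_bc_reg [IsNoetherianRing A] [Module.Finite A M] (i : ℕ) (h : EZ A (i + 1) M A) :
    EZ (R ⊗[K] A) (i + 1) (BC K R M) (R ⊗[K] A) := by
  exact Vale.Agent.P195.H231.EZ.congr_right (regEquiv K R A) (ez_bc i M h)

end

end Vale.Agent.P195.H584
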