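import Mathlib.FieldTheory.Relrank
import Mathlib.Algebra.Category.ModuleCat.Ext.HasExt
import Mathlib.RingTheory.TensorProduct.Basic

/-! # P195: the condition (AR) and base change -/

open CategoryTheory CategoryTheory.Abelian TensorProduct

universe u

namespace Vale.Agent.P195.H584

/-- Condition (AR) of the problem for the left `A`-module `M`:
`Ext^i(M, M) = 0` and `Ext^i(M, A) = 0` for all `i ≥ 1`. -/
def AR (A M : Type u) [Ring A] [AddCommGroup M] [Module A M] : Prop :=
  ∀ i : ℕ, 1 ≤ i → Subsingleton (Ext (ModuleCat.of A M) (ModuleCat.of A M) i) ∧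
    Subsingleton (Ext (ModuleCat.of A M) (ModuleCat.of A A) i)

/-- The field `K` is not an algebraic extension of a finite field. -/
def Large (K : Type u) [Field K] : Prop :=
  ∀ F : Subfield K, Finite F → ¬ Algebra.IsAlgebraic F K

/-- For every nonzero `K`-algebra `R` (commutative or not) the left `R ⊗ A`-module `R ⊗ M`, with
the action `(r ⊗ a) (s ⊗ m) = r s ⊗ a m`, is finitely generated and satisfies (AR), and it is
projective if and only if the `A`-module `M` is. -/
def StablyAR (K A M : Type u) [Field K] [Ring A] [Algebra K A] [AddCommGroup M] [Module K M]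
    [Module A M] : Prop :=
  ∀ (R : Type u) [Ring R] [Nontrivial R] [Algebra K R],
    ∃ _ : Module (R ⊗[K] A) (R ⊗[K] M),
      (∀ (r s : R) (a : A) (m : M),
        (r ⊗ₜ[K] a : R ⊗[K] A) • (s ⊗ₜ[K] m : R ⊗[K] M) = (r * s) ⊗ₜ[K] (a • m)) ∧
      Module.Finite (R ⊗[K] A) (R ⊗[K] M) ∧ AR (R ⊗[K] A) (R ⊗[K] M) ∧
      (Module.Projective (R ⊗[K] A) (R ⊗[K] M) ↔ Module.Projective A M)

end Vale.Agent.P195.H584
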